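import Vale.Agent.P167.H632.C2.Law
import Vale.Agent.P167.H192.Dict2
import Vale.Agent.P167.H718.Rc2

/-!
# P167, route (C), (C2): intermediate values along lattice paths, points near the lower half circle
-/

set_option autoImplicit false

namespace Vale.Agent.P167.H632C2

open Relation Vale.Agent.P167 Vale.Agent.P167.FK
open Vale.Agent.P167.FKA (Cor cor_of_step)
open Vale.Agent.P145.FB (PStep PConn)
open Vale.Agent.P167.H632Q.Sand

/-- **Intermediate values along a path.** -/
theorem path_ivt {G : Set (ℤ × ℤ)} {f : ℤ × ℤ → ℝ} {m τ : ℝ}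
    (hf : ∀ y ∈ G, ∀ a b, Cor y a → Cor y b → (a.1 + a.2) % 2 = (b.1 + b.2) % 2 →
      |f a - f b| ≤ m) {s t : ℤ × ℤ} (h : ReflTransGen (PStep G) s t) (h1 : f s - m ≤ τ)
    (h2 : τ ≤ f t + m) :
    s = t ∨ ∃ y ∈ G, ∃ x, Cor y x ∧ (x.1 + x.2) % 2 = (s.1 + s.2) % 2 ∧ |f x - τ| ≤ m := by
  induction h using ReflTransGen.head_induction_on with
  | refl => exact Or.inl rfl
  | @head a b hab _ ih =>
    obtain ⟨q, hq⟩ : ∃ q : ℤ × ℤ, q = (min a.1 b.1, min a.2 b.2) := ⟨_, rfl⟩
    have hc := cor_of_step hab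
    have hG : q ∈ G := by rw [hq]; exact hab.2.2
    rw [← hq] at hc
    have hpar := step_par hab
    right
    by_cases h3 : |f a - τ| ≤ m
    · exact ⟨q, hG, a, hc.1, rfl, h3⟩
    · have h4 : f a < τ - m := by
        by_contra h5
        push Not at h5
        exact h3 (abs_le.2 ⟨by linarith, by linarith⟩)
      have h5 := abs_le.1 (hf q hG a b hc.1 hc.2 hpar.symm)
      rcases ih (by linarith) with rfl | ⟨y, hy, x, hx, hx1, hx2⟩
      · exact ⟨q, hG, b, hc.2, hpar, abs_le.2 ⟨by linarith, by linarith⟩⟩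
      · exact ⟨y, hy, x, hx, by rw [hx1, hpar], hx2⟩

theorem sq_sub_le {a b : ℝ} (ha : a ≤ 0) (hb : b ≤ 0) : (a - b) ^ 2 ≤ |a ^ 2 - b ^ 2| := by
  rcases le_total a b with h | h
  · rw [abs_of_nonneg (by nlinarith)]
    nlinarith
  · rw [abs_of_nonpos (by nlinarith)]
    nlinarith

/-- A point near the lower half circle is determined by its real part. -/
theorem near_of_re {w : ℂ} {τ u κ m : ℝ} (hτ : τ ∈ Set.Icc Real.pi (2 * Real.pi))
    (hu : u ∈ Set.Icc Real.pi (2 * Real.pi)) (hw : ‖w - Complex.exp (τ * Complex.I)‖ ≤ κ)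
    (hre : |w.re - Real.cos u| ≤ m) :
    ‖w - Complex.exp (u * Complex.I)‖ ≤ κ + ((κ + m) + Real.sqrt (2 * (κ + m))) := by
  have hsin : ∀ x ∈ Set.Icc Real.pi (2 * Real.pi), Real.sin x ≤ 0 := by
    intro x hx
    have h1 := Real.sin_nonneg_of_nonneg_of_le_pi (x := x - Real.pi) (by linarith [hx.1])
      (by linarith [hx.2])
    rw [Real.sin_sub_pi] at h1
    linarith
  have h1 : |Real.cos τ - Real.cos u| ≤ κ + m := by
    have h2 : |w.re - Real.cos τ| ≤ κ := by
      have h3 := Complex.abs_re_le_norm (w - Complex.exp (τ * Complex.I))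
      rw [Complex.sub_re, Complex.exp_ofReal_mul_I_re] at h3
      exact h3.trans hw
    calc |Real.cos τ - Real.cos u| ≤ |Real.cos τ - w.re| + |w.re - Real.cos u| := abs_sub_le _ _ _
      _ ≤ κ + m := by rw [abs_sub_comm]; linarith
  have h2 : |Real.sin τ - Real.sin u| ≤ Real.sqrt (2 * (κ + m)) := by
    apply Real.abs_le_sqrt
    refine (sq_sub_le (hsin τ hτ) (hsin u hu)).trans ?_
    have e : Real.sin τ ^ 2 - Real.sin u ^ 2 =
        -((Real.cos τ - Real.cos u) * (Real.cos τ + Real.cos u)) := by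
      nlinarith [Real.sin_sq_add_cos_sq τ, Real.sin_sq_add_cos_sq u]
    rw [e, abs_neg, abs_mul]
    have h3 : |Real.cos τ + Real.cos u| ≤ 2 := by
      have := Real.abs_cos_le_one τ
      have := Real.abs_cos_le_one u
      have := abs_add_le (Real.cos τ) (Real.cos u)
      linarith
    have h4 := abs_nonneg (Real.cos τ - Real.cos u)
    nlinarith [abs_nonneg (Real.cos τ + Real.cos u)]
  have h3 : ‖Complex.exp (τ * Complex.I) - Complex.exp (u * Complex.I)‖ ≤
      (κ + m) + Real.sqrt (2 * (κ + m)) := by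
    refine (Complex.norm_le_abs_re_add_abs_im _).trans ?_
    rw [Complex.sub_re, Complex.sub_im, Complex.exp_ofReal_mul_I_re, Complex.exp_ofReal_mul_I_re,
      Complex.exp_ofReal_mul_I_im, Complex.exp_ofReal_mul_I_im]
    linarith
  calc ‖w - Complex.exp (u * Complex.I)‖ ≤ ‖w - Complex.exp (τ * Complex.I)‖ +
        ‖Complex.exp (τ * Complex.I) - Complex.exp (u * Complex.I)‖ := norm_sub_le_norm_sub_add_norm_sub _ _ _
    _ ≤ _ := by linarith

end Vale.Agent.P167.H632C2
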