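import Vale.Agent.P167.H632.C2.Ivt

/-!
# P167, route (C), (C2): the transfer conditions for two lattice domains which are close to each other

`GeoL`: the coordinates `X` of the sites (in the plane of the unit disc); the wired vertices of `D` are near
`exp (i t u)`, `t u ∈ [π, 2π]` monotone; the outside squares `Ou C P ζ` are near the lower half circle; the
contact sites are wired vertices of `D`; the base site `wP` is near `1`. `GeoL.tr`: the conditions `Tr` for
sets `A ⊆ A'`, `B` of squares, `A` far from the base, `A'` contains the squares near `A`, `B` far from the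
outside squares.
-/

set_option autoImplicit false

namespace Vale.Agent.P167.H632C2

open Relation Vale.Agent.P167 Vale.Agent.P167.FK
open Vale.Agent.P167.FKA (Cor cor_of_step)
open Vale.Agent.P145.FB (PStep PConn)
open Vale.Agent.P167.H632Q.Sand
open Vale.Agent.P167.H718 (Dq etaQ wE mem_wE mem_Dq mem_Dq')
open Vale.Agent.P167.H192 (ro sq ed cfg_true)
open Vale.Agent.P167.E6 (IsPolygon Encloses edges dir)

variable {n : ℕ} {p : ZMod n → ℤ × ℤ} {k : ℕ} {S : Finset (ℤ × ℤ)}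

/-- the square of the edge from `p u` to `p (u + 1)` -/
def wsq (p : ZMod n → ℤ × ℤ) (u : ℕ) : ℤ × ℤ := sq s(p u, p ((u + 1 : ℕ) : ZMod n))

theorem wsq_step (hp : IsPolygon p) {u : ℕ} (h1 : k ≤ u) (h2 : u + 1 < n) {A : Set (ℤ × ℤ)}
    (hA : wsq p u ∉ A) :
    PStep (Wi (Dq S p k) (etaQ p k) \ A) (ro (p u)) (ro (p ((u + 1 : ℕ) : ZMod n))) ∧
      Cor (wsq p u) (ro (p u)) := by
  obtain ⟨r, hr⟩ := hp.2.2 (u : ZMod n)
  have e1 : p ((u + 1 : ℕ) : ZMod n) = p u + dir r := by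
    rw [← hr]
    push_cast
    rfl
  obtain ⟨h3, h4⟩ := H192.ro_dir (p u) r
  have h5 : (min (ro (p u)).1 (ro (p u + dir r)).1, min (ro (p u)).2 (ro (p u + dir r)).2) =
      wsq p u := by
    unfold wsq
    rw [e1, H192.sq_dir]
  have h6 : ed (wsq p u) = s(p u, p (u + 1)) := by
    unfold wsq
    rw [e1, H192.ed_sq ⟨p u, r, rfl⟩, hr]
  have h7 : s(p u, p (u + 1)) ∈ wE p k := mem_wE.2 ⟨u, h1, h2, rfl⟩
  have hst : PStep (Wi (Dq S p k) (etaQ p k) \ A) (ro (p u)) (ro (p ((u + 1 : ℕ) : ZMod n))) := by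
    rw [e1]
    refine ⟨h3, h4, ?_⟩
    rw [h5]
    refine ⟨⟨?_, ?_⟩, hA⟩
    · show etaQ p k (wsq p u) = true
      unfold etaQ
      rw [cfg_true, Finset.mem_coe, h6]
      exact h7
    · intro h
      exact ((mem_Dq').1 h).2 (by rw [h6]; exact h7)
  refine ⟨hst, ?_⟩
  have h8 := (cor_of_step hst).1
  rw [e1, h5] at h8
  exact h8

/-- The wired arc is a path. -/
theorem wired_path (hp : IsPolygon p) {i j : ℕ} (hi : k ≤ i) (hij : i ≤ j) (hj : j < n)
    {A : Set (ℤ × ℤ)} (hA : ∀ u, i ≤ u → u < j → wsq p u ∉ A) :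
    ReflTransGen (PStep (Wi (Dq S p k) (etaQ p k) \ A)) (ro (p i)) (ro (p j)) := by
  induction j, hij using Nat.le_induction with
  | base => exact ReflTransGen.refl
  | succ j hij ih =>
    exact (ih (by omega) fun u h1 h2 => hA u h1 (by omega)).tail
      (wsq_step hp (by omega) hj (hA j hij (by omega))).1

theorem rtg_symm {F : Set (ℤ × ℤ)} {s t : ℤ × ℤ} (h : ReflTransGen (PStep F) s t) :
    ReflTransGen (PStep F) t s := FKA.rtg_symm h

/-- The geometric conditions. -/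
structure GeoL (p : ZMod n → ℤ × ℤ) (k : ℕ) (C P : Finset (ℤ × ℤ)) (ζ : Cfg) (X : ℤ × ℤ → ℂ)
    (t : ℕ → ℝ) (κ : ℝ) (wP : ℤ × ℤ) : Prop where
  mono : Monotone t
  low : ∀ u, k ≤ u → Real.pi ≤ t u
  upp : ∀ u, u < n → t u ≤ 2 * Real.pi
  vert : ∀ u, k ≤ u → u < n → ‖X (ro (p u)) - Complex.exp (t u * Complex.I)‖ ≤ κ
  out : ∀ y ∈ Ou C P ζ, ∀ s, (s.1 + s.2) % 2 = 0 → Cor y s →
    ∃ τ ∈ Set.Icc Real.pi (2 * Real.pi), ‖X s - Complex.exp (τ * Complex.I)‖ ≤ κ
  step : ∀ y ∈ Ou C P ζ, ∀ a b, Cor y a → Cor y b → (a.1 + a.2) % 2 = 0 → (b.1 + b.2) % 2 = 0 →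
    ‖X a - X b‖ ≤ κ
  cont : ∀ s, Ct C P ζ s → ∃ u, k ≤ u ∧ u < n ∧ s = ro (p u)
  par : (wP.1 + wP.2) % 2 = 0
  base : ∃ y ∈ Ou C P ζ, Cor y wP
  near : ‖X wP - 1‖ ≤ κ

variable {C P : Finset (ℤ × ℤ)} {ζ : Cfg} {X : ℤ × ℤ → ℂ} {t : ℕ → ℝ} {κ : ℝ} {wP : ℤ × ℤ}

/-- The radius which belongs to `κ`. -/
noncomputable def rad (κ : ℝ) : ℝ := κ + ((κ + 2 * κ) + Real.sqrt (2 * (κ + 2 * κ)))

namespace GeoL

theorem kap_nonneg (h : GeoL p k C P ζ X t κ wP) : 0 ≤ κ := (norm_nonneg _).trans h.near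

/-- The real part along the path. -/
theorem ivt (h : GeoL p k C P ζ X t κ wP) {A : Set (ℤ × ℤ)} {a b : ℤ × ℤ}
    (ha : (a.1 + a.2) % 2 = 0) (hp : ReflTransGen (PStep (Ou C P ζ \ A)) a b) {u : ℕ}
    (hu : k ≤ u) (hun : u < n) (h1 : (X a).re ≤ Real.cos (t u) + 2 * κ)
    (h2 : Real.cos (t u) ≤ (X b).re + 2 * κ) :
    a = b ∨ ∃ y ∈ Ou C P ζ \ A, ∃ x, Cor y x ∧
      ‖X x - Complex.exp (t u * Complex.I)‖ ≤ rad κ := by
  have hκ := h.kap_nonneg
  -- only the even sites matter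
  classical
  obtain ⟨f, hf⟩ : ∃ f : ℤ × ℤ → ℝ, f = fun s => if (s.1 + s.2) % 2 = 0 then (X s).re else 0 :=
    ⟨_, rfl⟩
  have hfe : ∀ s : ℤ × ℤ, (s.1 + s.2) % 2 = 0 → f s = (X s).re := fun s hs => by
    rw [hf]; simp only; rw [if_pos hs]
  have hb : (b.1 + b.2) % 2 = 0 := by
    clear h1 h2
    induction hp with
    | refl => exact ha
    | tail _ hst ih => rw [step_par hst]; exact ih
  have h3 := path_ivt (f := f) (m := 2 * κ) (τ := Real.cos (t u)) (fun y hy c d hc hd hcd => by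
      by_cases hce : (c.1 + c.2) % 2 = 0
      · have hde : (d.1 + d.2) % 2 = 0 := by rw [← hcd]; exact hce
        rw [hfe c hce, hfe d hde]
        have h4 := h.step y hy.1 c d hc hd hce hde
        have h5 := Complex.abs_re_le_norm (X c - X d)
        rw [Complex.sub_re] at h5
        linarith
      · have hde : ¬ (d.1 + d.2) % 2 = 0 := by rw [← hcd]; exact hce
        rw [hf]
        simp only
        rw [if_neg hce, if_neg hde, sub_self, abs_zero]
        linarith) hp (by rw [hfe a ha]; linarith) (by rw [hfe b hb]; linarith)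
  rcases h3 with h3 | ⟨y, hy, x, hyx, hx, h4⟩
  · exact Or.inl h3
  · right
    have hxe : (x.1 + x.2) % 2 = 0 := by rw [hx]; exact ha
    rw [hfe x hxe] at h4
    obtain ⟨τ, hτ, h5⟩ := h.out y hy.1 x hxe hyx
    exact ⟨y, hy, x, hyx, near_of_re hτ ⟨h.low u hu, h.upp u hun⟩ h5 h4⟩

theorem cos_mono (h : GeoL p k C P ζ X t κ wP) {i j : ℕ} (hi : k ≤ i) (hij : i ≤ j) (hj : j < n) :
    Real.cos (t i) ≤ Real.cos (t j) := by
  have h1 := h.mono hij
  have h2 := h.low i hi
  have h3 := h.upp j hj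
  have h4 := Real.cos_le_cos_of_nonneg_of_le_pi (x := 2 * Real.pi - t j) (y := 2 * Real.pi - t i)
    (by linarith) (by linarith) (by linarith)
  rwa [Real.cos_two_pi_sub, Real.cos_two_pi_sub] at h4

theorem re_vert (h : GeoL p k C P ζ X t κ wP) {u : ℕ} (hu : k ≤ u) (hun : u < n) :
    |(X (ro (p u))).re - Real.cos (t u)| ≤ κ := by
  have h1 := h.vert u hu hun
  have h2 := Complex.abs_re_le_norm (X (ro (p u)) - Complex.exp (t u * Complex.I))
  rw [Complex.sub_re, Complex.exp_ofReal_mul_I_re] at h2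
  exact h2.trans h1

theorem par_ro (v : ℤ × ℤ) : ((ro v).1 + (ro v).2) % 2 = 0 := Int.even_iff.1 (H192.even_ro v)

/-- **The transfer conditions.** -/
theorem tr (h : GeoL p k C P ζ X t κ wP) (hp : IsPolygon p) (hkn : k < n) {A A' B : Set (ℤ × ℤ)}
    (hAA : A ⊆ A')
    (hA' : ∀ u, k ≤ u → u + 1 < n → wsq p u ∈ A → ∀ y ∈ Ou C P ζ, ∀ x, Cor y x →
      ‖X x - Complex.exp (t u * Complex.I)‖ ≤ rad κ → y ∈ A')
    (hA : ∀ u, k ≤ u → u + 1 < n → wsq p u ∈ A → rad κ < ‖Complex.exp (t u * Complex.I) - 1‖)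
    (hB : ∀ v ∈ B, ∀ s, (s.1 + s.2) % 2 = 0 → Cor v s → ∀ τ ∈ Set.Icc Real.pi (2 * Real.pi),
      κ < ‖X s - Complex.exp (τ * Complex.I)‖) :
    Tr C (Dq S p k) P (etaQ p k) ζ A A' B (ro (p (-1))) wP := by
  have hκ := h.kap_nonneg
  -- two contact sites in the order of the wired arc
  have key : ∀ i j, k ≤ i → i ≤ j → j < n →
      ReflTransGen (PStep (Ou C P ζ \ A')) (ro (p i)) (ro (p j)) →
      ReflTransGen (PStep (Wi (Dq S p k) (etaQ p k) \ A)) (ro (p i)) (ro (p j)) := by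
    intro i j hi hij hj hpath
    refine wired_path hp hi hij hj fun u h1 h2 hu => ?_
    have hku : k ≤ u := hi.trans h1
    have c1 := h.cos_mono hi h1 (by omega)
    have c2 := h.cos_mono hku h2.le hj
    have r1 := abs_le.1 (h.re_vert hi (by omega))
    have r2 := abs_le.1 (h.re_vert (hi.trans hij) hj)
    rcases h.ivt (par_ro _) hpath hku (by omega) (by linarith) (by linarith) with h3 | h3
    · have h4 : p (i : ZMod n) = p (j : ZMod n) := H192.ro_inj h3
      have h5 := hp.2.1 h4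
      rw [ZMod.natCast_eq_natCast_iff'] at h5
      rw [Nat.mod_eq_of_lt (by omega), Nat.mod_eq_of_lt hj] at h5
      omega
    · obtain ⟨y, hy, x, hyx, hx⟩ := h3
      exact hy.2 (hA' u hku (by omega) hu y hy.1 x hyx hx)
  refine ⟨hAA, ?_, ?_, ?_, h.par, h.base⟩
  · intro s t' hs ht hpath
    obtain ⟨i, hi, hin, rfl⟩ := h.cont s hs
    obtain ⟨j, hj, hjn, rfl⟩ := h.cont t' ht
    rcases le_total i j with hij | hij
    · exact key i j hi hij hjn hpath
    · exact rtg_symm (key j i hj hij hin (rtg_symm hpath))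
  · intro s hs hpath
    obtain ⟨j, hj, hjn, rfl⟩ := h.cont s hs
    have e1 : ((n - 1 : ℕ) : ZMod n) = -1 := by
      have hn : 0 < n := by omega
      rw [Nat.cast_sub (by omega : 1 ≤ n), ZMod.natCast_self]
      simp
    rw [← e1]
    refine rtg_symm (wired_path hp hj (by omega) (by omega) fun u h1 h2 hu => ?_)
    have hku : k ≤ u := hj.trans h1
    have hun : u + 1 < n := by omega
    have c1 := h.cos_mono hj h1 (by omega)
    have r1 := abs_le.1 (h.re_vert hj hjn)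
    have r2 : |(X wP).re - 1| ≤ κ := by
      have h3 := Complex.abs_re_le_norm (X wP - 1)
      rw [Complex.sub_re, Complex.one_re] at h3
      exact h3.trans h.near
    have r3 := abs_le.1 r2
    have hle := Real.cos_le_one (t u)
    rcases h.ivt (par_ro _) (rtg_symm hpath) hku (by omega) (by linarith) (by linarith) with h3 | h3
    · -- the base site is the contact site
      have h4 : 1 - 2 * κ ≤ Real.cos (t u) := by
        rw [h3] at r1
        linarith
      have h5 : ‖Complex.exp (t u * Complex.I) - Complex.exp ((2 * Real.pi : ℝ) * Complex.I)‖ ≤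
          0 + ((0 + 2 * κ) + Real.sqrt (2 * (0 + 2 * κ))) := by
        refine near_of_re (τ := t u) ⟨h.low u hku, h.upp u (by omega)⟩
          ⟨by linarith [Real.pi_pos], le_rfl⟩ (by rw [sub_self, norm_zero]) ?_
        rw [Complex.exp_ofReal_mul_I_re, Real.cos_two_pi, abs_le]
        constructor <;> linarith
      have h6 : Complex.exp ((2 * Real.pi : ℝ) * Complex.I) = 1 := by
        push_cast
        exact Complex.exp_two_pi_mul_I
      rw [h6] at h5
      have h7 : 0 + ((0 + 2 * κ) + Real.sqrt (2 * (0 + 2 * κ))) ≤ rad κ := by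
        unfold rad
        have : Real.sqrt (2 * (0 + 2 * κ)) ≤ Real.sqrt (2 * (κ + 2 * κ)) :=
          Real.sqrt_le_sqrt (by linarith)
        linarith
      exact absurd (h5.trans h7) (not_le.2 (hA u hku hun hu))
    · obtain ⟨y, hy, x, hyx, hx⟩ := h3
      exact hy.2 (hA' u hku hun hu y hy.1 x hyx hx)
  · intro v hv s hs hvs y hy hys
    obtain ⟨τ, hτ, h1⟩ := h.out y hy s hs hys
    exact absurd h1 (not_le.2 (hB v hv s hs hvs τ hτ))

/-- The contact sites are joined by the wired arc. -/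
theorem jo (h : GeoL p k C P ζ X t κ wP) (hp : IsPolygon p) : Jo C (Dq S p k) P (etaQ p k) ζ := by
  intro s s' hs hs'
  obtain ⟨i, hi, hin, rfl⟩ := h.cont s hs
  obtain ⟨j, hj, hjn, rfl⟩ := h.cont s' hs'
  have h1 : Wi (Dq S p k) (etaQ p k) \ ∅ ⊆ op (etaQ p k) ∩ (↑(Dq S p k))ᶜ := by
    rintro y ⟨⟨h1, h2⟩, -⟩
    exact ⟨h1, fun h3 => h2 (Finset.mem_coe.1 h3)⟩
  rcases le_total i j with hij | hij
  · exact rtg_mono h1 (wired_path hp hi hij hjn fun _ _ _ h => h)
  · exact rtg_symm (rtg_mono h1 (wired_path hp hj hij hin fun _ _ _ h => h))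

end GeoL

end Vale.Agent.P167.H632C2
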