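import Vale.Agent.P167.H632.Q.SandC
import Vale.Agent.P167.H714.C1.Hit

/-!
# P167, general `q`, route (C), (C2): the sandwich for finite intersections of hitting events, law level

`D`, `P` domains with the outsides `η`, `ζ` (`P` below `D`), `C ⊆ D ∩ P`. `Ou C P ζ`: the squares off `C`
which are in `P` or open in `ζ`; `Wi D η`: the squares off `D` which are open in `η`. `Tr`: the conditions
for the transfer of the event `Hc` (714: an open path off `A` from the base site to a square of `B`).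
-/

set_option autoImplicit false

namespace Vale.Agent.P167.H632C2

open Finset Relation Vale.Agent.P167 Vale.Agent.P167.FK
open Vale.Agent.P167.FKA (Cor cor_of_step cor_pa cor_pb Ex_mono Ex_congr cf_out ind_nonneg ind_compl)
open Vale.Agent.P145.FB (PStep PConn)
open Vale.Agent.P167.H632Q.Sand
open Vale.Agent.P167.H714.C1 (Hc)

variable {Q : ℝ} {C D P : Finset (ℤ × ℤ)} {η ζ : Cfg} {A A' B : Set (ℤ × ℤ)} {wD wP : ℤ × ℤ}

/-- the squares off `C` which are in `P` or open in `ζ` -/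
def Ou (C P : Finset (ℤ × ℤ)) (ζ : Cfg) : Set (ℤ × ℤ) := {y | y ∉ C ∧ (y ∈ P ∨ ζ y = true)}

/-- the squares off `D` which are open in `η` -/
def Wi (D : Finset (ℤ × ℤ)) (η : Cfg) : Set (ℤ × ℤ) := {y | η y = true ∧ y ∉ D}

/-- The conditions for the transfer. -/
structure Tr (C D P : Finset (ℤ × ℤ)) (η ζ : Cfg) (A A' B : Set (ℤ × ℤ)) (wD wP : ℤ × ℤ) :
    Prop where
  sub : A ⊆ A'
  jo : ∀ s t, Ct C P ζ s → Ct C P ζ t → ReflTransGen (PStep (Ou C P ζ \ A')) s t →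
    ReflTransGen (PStep (Wi D η \ A)) s t
  st : ∀ t, Ct C P ζ t → ReflTransGen (PStep (Ou C P ζ \ A')) wP t →
    ReflTransGen (PStep (Wi D η \ A)) wD t
  far : ∀ v ∈ B, ∀ t, (t.1 + t.2) % 2 = 0 → Cor v t → ∀ y ∈ Ou C P ζ, ¬ Cor y t
  par : (wP.1 + wP.2) % 2 = 0
  base : ∃ y ∈ Ou C P ζ, Cor y wP

/-- **The transfer of the event.** -/
theorem Tr.hc (h : Tr C D P η ζ A A' B wD wP) (hCD : C ⊆ D) {S : Finset (ℤ × ℤ)}
    (hH : Hc true (cP C P ζ S) A' B wP) : Hc true (cD C D η S) A B wD := by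
  obtain ⟨t, v, hvB, hvt, hp⟩ := hH
  have hWi : ∀ s t, ReflTransGen (PStep (Wi D η \ A)) s t →
      ReflTransGen (PStep {v | cD C D η S v = true ∧ v ∉ A}) s t := fun s t hst =>
    rtg_mono (fun y hy => by
      obtain ⟨⟨h1, h2⟩, h3⟩ := hy
      exact ⟨by rw [cD_off hCD h2, h1], h3⟩) hst
  have key : ∀ w, ReflTransGen (PStep {v | cP C P ζ S v = true ∧ v ∉ A'}) wP w →
      (w.1 + w.2) % 2 = 0 ∧
      ((Tc C w ∧ ReflTransGen (PStep {v | cD C D η S v = true ∧ v ∉ A}) wD w) ∨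
        ((∃ s, (s = wP ∨ (Ct C P ζ s ∧
            ReflTransGen (PStep {v | cD C D η S v = true ∧ v ∉ A}) wD s)) ∧
          ReflTransGen (PStep (Ou C P ζ \ A')) s w) ∧ ∃ y ∈ Ou C P ζ, Cor y w)) := by
    intro w hw
    induction hw with
    | refl => exact ⟨h.par, Or.inr ⟨⟨wP, Or.inl rfl, ReflTransGen.refl⟩, h.base⟩⟩
    | @tail w w' _ hst ih =>
      obtain ⟨hpar, ih⟩ := ih
      refine ⟨by rw [step_par hst, hpar], ?_⟩
      obtain ⟨q, hq⟩ : ∃ q : ℤ × ℤ, q = (min w.1 w'.1, min w.2 w'.2) := ⟨_, rfl⟩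
      have hc := cor_of_step hst
      have hopen : cP C P ζ S q = true ∧ q ∉ A' := by rw [hq]; exact hst.2.2
      rw [← hq] at hc
      by_cases hqC : q ∈ C
      · -- a square of `C`
        have hqD : cD C D η S q = true := by
          have h1 := hopen.1
          rw [cP_in hqC] at h1
          rw [cD_in hqC, h1]
        have hstep : PStep {v | cD C D η S v = true ∧ v ∉ A} w w' :=
          ⟨hst.1, hst.2.1, by rw [← hq]; exact ⟨hqD, fun h1 => hopen.2 (h.sub h1)⟩⟩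
        left
        refine ⟨⟨q, hqC, hc.2⟩, ?_⟩
        rcases ih with ⟨-, h1⟩ | ⟨⟨s, h1, h2⟩, y, hy, hyw⟩
        · exact h1.tail hstep
        · have hct : Ct C P ζ w := ⟨hpar, ⟨q, hqC, hc.1⟩, y, hy.1, hyw, hy.2⟩
          rcases h1 with rfl | ⟨h1, h3⟩
          · exact (hWi _ _ (h.st w hct h2)).tail hstep
          · exact (h3.trans (hWi _ _ (h.jo s w h1 hct h2))).tail hstep
      · -- a square off `C`
        have hy : q ∈ Ou C P ζ := ⟨hqC, cP_out hqC hopen.1⟩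
        have hstep : PStep (Ou C P ζ \ A') w w' :=
          ⟨hst.1, hst.2.1, by rw [← hq]; exact ⟨hy, hopen.2⟩⟩
        right
        refine ⟨?_, q, hy, hc.2⟩
        rcases ih with ⟨h1, h2⟩ | ⟨⟨s, h1, h2⟩, -⟩
        · exact ⟨w, Or.inr ⟨⟨hpar, h1, q, hqC, hc.1, hy.2⟩, h2⟩, ReflTransGen.single hstep⟩
        · exact ⟨s, h1, h2.tail hstep⟩
  obtain ⟨hpar, h2 | ⟨-, y, hy, hyt⟩⟩ := key t hp
  · exact ⟨t, v, hvB, hvt, h2.2⟩
  · exact absurd hyt (h.far v hvB t hpar hvt y hy)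

theorem hc_mono {A B : Set (ℤ × ℤ)} {s : ℤ × ℤ} {ω ω' : Cfg} (h : ∀ v, ω v = true → ω' v = true)
    (h1 : Hc true ω A B s) : Hc true ω' A B s := by
  obtain ⟨t, v, hv, hvt, hp⟩ := h1
  refine ⟨t, v, hv, hvt, rtg_mono (fun y hy => ?_) hp⟩
  obtain ⟨h2, h3⟩ := hy
  exact ⟨h y h2, h3⟩

theorem inc_ind {E : Set Cfg} (hE : ∀ ω ω' : Cfg, (∀ v, ω v = true → ω' v = true) → ω ∈ E → ω' ∈ E) :
    IncF (E.indicator (1 : Cfg → ℝ)) := by
  intro ω ω' h
  by_cases h1 : ω ∈ E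
  · rw [Set.indicator_of_mem h1, Set.indicator_of_mem (hE ω ω' h h1)]
    exact le_refl (1 : ℝ)
  · rw [Set.indicator_of_notMem h1]
    exact ind_nonneg _ _

/-- **(C2), law level**: the sandwich for the intersection of a family of hitting events. -/
theorem law {ι : Type*} {A A' B : ι → Set (ℤ × ℤ)} (hQ : 1 ≤ Q) (hη : Good η) (hζ : Good ζ)
    (hCD : C ⊆ D) (hCP : C ⊆ P) (hJ : Jo C D P η ζ)
    (hT : ∀ j, Tr C D P η ζ (A j) (A' j) (B j) wD wP) :
    Pr Q P ζ {ω | ∀ j, Hc true ω (A' j) (B j) wP} ≤ Pr Q D η {ω | ∀ j, Hc true ω (A j) (B j) wD} := by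
  have h := sandC (F := ({ω | ∀ j, Hc true ω (A' j) (B j) wP} : Set Cfg).indicator 1)
    (G := ({ω | ∀ j, Hc true ω (A j) (B j) wD} : Set Cfg).indicator 1) (Z := ∅) (T := ∅) hQ hη hζ
    hCD hCP (empty_subset _) (empty_subset _) hJ
    (inc_ind fun ω ω' h h1 j => hc_mono h (h1 j)) (inc_ind fun ω ω' h h1 j => hc_mono h (h1 j))
    (fun S _ => by
      by_cases h1 : cP C P ζ S ∈ {ω : Cfg | ∀ j, Hc true ω (A' j) (B j) wP}
      · rw [Set.indicator_of_mem h1, Set.indicator_of_mem]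
        · exact le_refl (1 : ℝ)
        · exact fun j => (hT j).hc hCD (h1 j)
      · rw [Set.indicator_of_notMem h1]
        exact ind_nonneg _ _)
  have e1 : cf ∅ ζ ∅ = ζ := by funext v; simp [cf]
  have e2 : cf ∅ η ∅ = η := by funext v; simp [cf]
  rw [sdiff_empty, sdiff_empty, e1, e2] at h
  exact h

end Vale.Agent.P167.H632C2
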